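import Mathlib

/-! P278: complex manifolds, holomorphic subbundles of the tangent bundle, Kaehler metrics. -/

open scoped Manifold ContDiff

namespace Vale.Agent.P278S

/-- The model space of complex manifolds of dimension `n`. -/
abbrev Cn (n : ℕ) : Type := EuclideanSpace ℂ (Fin n)

section

variable (V : Type) [NormedAddCommGroup V] [NormedSpace ℂ V] (X : Type) [TopologicalSpace X]
  [ChartedSpace V X]

/-- Fields of sesquilinear forms on the tangent spaces. -/
abbrev FormField : Type := ∀ x : X, TangentSpace 𝓘(ℂ, V) x →ₗ⋆[ℂ] TangentSpace 𝓘(ℂ, V) x →ₗ[ℂ] ℂ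

/-- Fields of complex subspaces of the tangent spaces. -/
abbrev SubField : Type := ∀ x : X, Submodule ℂ (TangentSpace 𝓘(ℂ, V) x)

/-- Vector fields. -/
abbrev VecField : Type := ∀ x : X, TangentSpace 𝓘(ℂ, V) x

variable {V X}

/-- The expression of a field of sesquilinear forms in the chart at `x₀`. -/
noncomputable def inChart (h : FormField V X) (x₀ : X) (p u v : V) : ℂ :=
  h ((chartAt V x₀).symm p) (mfderiv 𝓘(ℂ, V) 𝓘(ℂ, V) (chartAt V x₀).symm p u)
    (mfderiv 𝓘(ℂ, V) 𝓘(ℂ, V) (chartAt V x₀).symm p v)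

/-- A Kaehler metric: a smooth Hermitian metric whose imaginary part is a closed two-form. -/
structure IsKaehler [NormedSpace ℝ V] (h : FormField V X) : Prop where
  herm : ∀ x u v, h x u v = starRingEnd ℂ (h x v u)
  pos : ∀ x u, u ≠ 0 → 0 < (h x u u).re
  smooth : ∀ x₀ u v, ContDiffOn ℝ ∞ (fun p => inChart h x₀ p u v) (chartAt V x₀).target
  closed : ∀ x₀, ∀ p ∈ (chartAt V x₀).target, ∀ u v w : V,
    fderiv ℝ (fun q => (inChart h x₀ q v w).im) p u +
      fderiv ℝ (fun q => (inChart h x₀ q w u).im) p v +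
      fderiv ℝ (fun q => (inChart h x₀ q u v).im) p w = 0

/-- The subspaces `E i x` form a direct sum decomposition of every tangent space. -/
def IsSplitting {k : ℕ} (E : Fin k → SubField V X) : Prop :=
  ∀ x, DirectSum.IsInternal fun i => E i x

/-- The sum of the fields `E i` for `i ∈ S`. -/
noncomputable def sumField {k : ℕ} (E : Fin k → SubField V X) (S : Set (Fin k)) : SubField V X :=
  fun x => ⨆ i ∈ S, E i x

/-- The differential of `f` at `m`. -/
noncomputable def diff {W : Type} [NormedAddCommGroup W] [NormedSpace ℂ W] {Y : Type}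
    [TopologicalSpace Y] [ChartedSpace W Y] (f : X → Y) (m : X) (v : TangentSpace 𝓘(ℂ, V) m) :
    TangentSpace 𝓘(ℂ, W) (f m) := mfderiv 𝓘(ℂ, V) 𝓘(ℂ, W) f m v

/-- `π : M → X` is a covering map and a local biholomorphism. -/
def IsHolCovering {M : Type} [TopologicalSpace M] [ChartedSpace V M] (π : M → X) : Prop :=
  IsCoveringMap π ∧ IsLocalDiffeomorph 𝓘(ℂ, V) 𝓘(ℂ, V) ω π

/-- The bijection `Φ` onto a product of complex manifolds is holomorphic with holomorphic
inverse. -/
def IsBihol (V : Type) [NormedAddCommGroup V] [NormedSpace ℂ V] {M : Type} [TopologicalSpace M]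
    [ChartedSpace V M] {k : ℕ} (W : Fin k → Type) [∀ i, NormedAddCommGroup (W i)]
    [∀ i, NormedSpace ℂ (W i)] {Y : Fin k → Type} [∀ i, TopologicalSpace (Y i)]
    [∀ i, ChartedSpace (W i) (Y i)] (Φ : M ≃ ∀ i, Y i) : Prop :=
  ContMDiff 𝓘(ℂ, V) (ModelWithCorners.pi fun i => 𝓘(ℂ, W i)) ω Φ ∧
    ContMDiff (ModelWithCorners.pi fun i => 𝓘(ℂ, W i)) 𝓘(ℂ, V) ω Φ.symm

/-- There are simply connected complex manifolds `Y i` modelled on `W i` and a biholomorphism
`Φ` from `M` onto their product whose differential maps the pull-back of `E i` onto the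
tangent directions of the factor `Y i`. -/
def CompatibleProduct {M : Type} [TopologicalSpace M] [ChartedSpace V M] (π : M → X) {k : ℕ}
    (E : Fin k → SubField V X) (W : Fin k → Type) [∀ i, NormedAddCommGroup (W i)]
    [∀ i, NormedSpace ℂ (W i)] : Prop :=
  ∃ (Y : Fin k → Type) (_ : ∀ i, TopologicalSpace (Y i)) (_ : ∀ i, ChartedSpace (W i) (Y i)),
    (∀ i, IsManifold 𝓘(ℂ, W i) ω (Y i) ∧ T2Space (Y i) ∧ SecondCountableTopology (Y i) ∧
      SimplyConnectedSpace (Y i)) ∧
    ∃ Φ : M ≃ ∀ i, Y i, IsBihol V W Φ ∧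
      ∀ (m : M) (i : Fin k) (v : TangentSpace 𝓘(ℂ, V) m),
        diff (W := V) π m v ∈ E i (π m) ↔ ∀ j ≠ i, diff (W := W j) (fun x => Φ x j) m v = 0

variable [IsManifold 𝓘(ℂ, V) ω X]

/-- A holomorphic vector field on `U`. -/
def HolField (U : Set X) (s : VecField V X) : Prop :=
  ContMDiffOn 𝓘(ℂ, V) 𝓘(ℂ, V).tangent ω (fun x => (⟨x, s x⟩ : TangentBundle 𝓘(ℂ, V) X)) U

/-- A holomorphic subbundle of the tangent bundle: locally it has a holomorphic frame. -/
def IsHolSubbundle (E : SubField V X) : Prop :=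
  ∀ x₀ : X, ∃ (U : Set X) (r : ℕ) (s : Fin r → VecField V X),
    IsOpen U ∧ x₀ ∈ U ∧ (∀ j, HolField U (s j)) ∧
    ∀ x ∈ U, LinearIndependent ℂ (fun j => s j x) ∧
      Submodule.span ℂ (Set.range fun j => s j x) = E x

/-- Local holomorphic sections are closed under the Lie bracket. -/
def IsIntegrable (E : SubField V X) : Prop :=
  ∀ (U : Set X) (s t : VecField V X), IsOpen U → HolField U s →
    HolField U t → (∀ x ∈ U, s x ∈ E x) → (∀ x ∈ U, t x ∈ E x) →
    ∀ x ∈ U, VectorField.mlieBracket 𝓘(ℂ, V) s t x ∈ E x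

end

end Vale.Agent.P278S
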