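import Mathlib

/-! P278 task Eps, auxiliary part: the mean value inequality on discs. -/

namespace Vale.Agent.P278.EpsAux

open Metric Set Filter Complex MeasureTheory Real

theorem mv_avg {F : ℂ → ℂ} {r : ℝ} (hr : 0 < r) (hF : DifferentiableOn ℂ F (closedBall 0 r)) :
    circleAverage F 0 r = F 0 := by
  refine DiffContOnCl.circleAverage ?_
  rw [abs_of_pos hr]
  exact (hF.mono closure_ball_subset_closedBall).diffContOnCl

theorem mv_polar {G : ℂ → ℂ} {A : Set ℝ} (hA : MeasurableSet A) {R : ℝ} (hAR : A ⊆ Iio R)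
    (hG : ContinuousOn G (closedBall 0 R)) {φ : ℝ → ℂ}
    (h : ∀ s ∈ A, 0 < s → circleAverage G 0 s = φ s) :
    ∫ z in {z : ℂ | ‖z‖ ∈ A}, G z = ∫ s in Ioi 0 ∩ A, (2 * π * s) • φ s := by
  have hs : ∀ p : ℝ × ℝ, Complex.polarCoord.symm p = circleMap 0 p.1 p.2 := by
    intro p
    rw [Complex.polarCoord_symm_apply, circleMap, zero_add, Complex.exp_mul_I]
    push_cast
    rfl
  have hn : ∀ {s : ℝ}, 0 ≤ s → ∀ θ, ‖circleMap 0 s θ‖ = s := fun hs θ => by
    simpa using circleMap_mem_sphere 0 hs θ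
  have hm : MeasurableSet ((Ioi (0 : ℝ) ∩ A) ×ˢ Ioo (-π) π) :=
    (measurableSet_Ioi.inter hA).prod measurableSet_Ioo
  rw [← integral_indicator (s := {z : ℂ | ‖z‖ ∈ A}) (measurable_norm hA),
    ← Complex.integral_comp_polarCoord_symm]
  have e : ∫ p in polarCoord.target, p.1 •
      {z : ℂ | ‖z‖ ∈ A}.indicator G (Complex.polarCoord.symm p)
      = ∫ p in (Ioi (0 : ℝ) ∩ A) ×ˢ Ioo (-π) π, p.1 • G (circleMap 0 p.1 p.2) := by
    have hsub : (Ioi (0 : ℝ) ∩ A) ×ˢ Ioo (-π) π ⊆ polarCoord.target := fun p hp => ⟨hp.1.1, hp.2⟩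
    rw [← inter_eq_left.2 hsub, ← Measure.restrict_restrict hm, ← integral_indicator hm]
    refine setIntegral_congr_fun polarCoord.open_target.measurableSet fun p hp => ?_
    have hp1 : 0 < p.1 := hp.1
    simp only [hs]
    by_cases hab : p.1 ∈ A
    · rw [indicator_of_mem (show circleMap 0 p.1 p.2 ∈ {z : ℂ | ‖z‖ ∈ A} by
        simpa only [mem_ofPred_eq, hn hp1.le] using hab),
        indicator_of_mem (show p ∈ (Ioi (0 : ℝ) ∩ A) ×ˢ Ioo (-π) π from ⟨⟨hp1, hab⟩, hp.2⟩)]
    · rw [indicator_of_notMem, indicator_of_notMem (fun h => hab h.1.2), smul_zero]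
      simpa only [mem_ofPred_eq, hn hp1.le] using hab
  refine e.trans ?_
  rw [Measure.volume_eq_prod, setIntegral_prod]
  · refine setIntegral_congr_fun (measurableSet_Ioi.inter hA) fun s hs => ?_
    simp only
    rw [integral_smul, ← h s hs.2 hs.1, circleAverage_eq_integral_add (-π),
      intervalIntegral.integral_comp_add_right (fun θ => G (circleMap 0 s θ)), smul_smul,
      ← integral_Ioc_eq_integral_Ioo, ← intervalIntegral.integral_of_le (by linarith [pi_pos])]
    congr 2
    · field_simp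
    · ring
    · ring
  · rw [← Measure.volume_eq_prod]
    refine (ContinuousOn.integrableOn_compact
      ((isCompact_Icc (a := 0) (b := R)).prod (isCompact_Icc (a := -π) (b := π))) ?_).mono_set
      (prod_mono (fun s hs => ⟨le_of_lt hs.1, le_of_lt (hAR hs.2)⟩) Ioo_subset_Icc_self)
    refine continuousOn_fst.smul (hG.comp (Continuous.continuousOn ?_) fun p hp => ?_)
    · unfold circleMap
      fun_prop
    · rw [mem_closedBall_zero_iff, hn hp.1.1]
      exact hp.1.2

theorem mv_disc {F : ℂ → ℂ} {W0 : ℂ} {r : ℝ} (hr : 0 < r)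
    (hF : DifferentiableOn ℂ F (closedBall W0 r)) :
    ∫ W, (ball W0 r).indicator F W = (π * r ^ 2 : ℝ) • F W0 := by
  have hF' : DifferentiableOn ℂ (fun W => F (W0 + W)) (closedBall 0 r) :=
    hF.comp (by fun_prop) fun W hW => by simpa using hW
  rw [← integral_add_left_eq_self _ W0]
  have e : (fun W => (ball W0 r).indicator F (W0 + W))
      = {z : ℂ | ‖z‖ ∈ Iio r}.indicator fun W => F (W0 + W) := by
    funext W
    by_cases h : ‖W‖ < r
    · rw [indicator_of_mem (by simpa using h), indicator_of_mem (by simpa using h)]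
    · rw [indicator_of_notMem (by simpa using h), indicator_of_notMem (by simpa using h)]
  rw [e, integral_indicator (s := {z : ℂ | ‖z‖ ∈ Iio r}) (measurable_norm measurableSet_Iio),
    mv_polar measurableSet_Iio Subset.rfl hF'.continuousOn (φ := fun _ => F W0)
      (fun s hs hs0 => by
        rw [mv_avg hs0 (hF'.mono (closedBall_subset_closedBall (le_of_lt hs))), add_zero]),
    integral_smul_const, Ioi_inter_Iio, ← integral_Ioc_eq_integral_Ioo,
    ← intervalIntegral.integral_of_le hr.le, intervalIntegral.integral_const_mul, integral_id]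
  congr 1
  ring

theorem mv_ineq {P : Type} [NormedAddCommGroup P] [NormedSpace ℂ P] {g : ℂ → P} {x : ℂ} {r : ℝ}
    (hr : 0 < r) (hg : DifferentiableOn ℂ g (closedBall x r)) :
    π * r ^ 2 * ‖g x‖ ^ 2 ≤ ∫ z in ball x r, ‖g z‖ ^ 2 := by
  obtain ⟨φ, hφ, hx⟩ := exists_dual_vector'' ℂ (g x)
  have hF : DifferentiableOn ℂ (fun z => φ (g z) ^ 2) (closedBall x r) :=
    (φ.differentiable.comp_differentiableOn hg).pow 2
  have h := mv_disc hr hF
  rw [integral_indicator measurableSet_ball] at h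
  have h1 : ‖∫ z in ball x r, φ (g z) ^ 2‖ = π * r ^ 2 * ‖g x‖ ^ 2 := by
    rw [h, norm_smul, hx, norm_pow, Real.norm_of_nonneg (by positivity)]
    simp
  rw [← h1]
  refine norm_integral_le_of_norm_le ?_ (Eventually.of_forall fun z => ?_)
  · exact ((hg.continuousOn.norm.pow 2).integrableOn_compact (isCompact_closedBall x r)).mono_set
      ball_subset_closedBall
  · rw [norm_pow]
    refine pow_le_pow_left₀ (norm_nonneg _) ((φ.le_opNorm _).trans ?_) 2
    exact mul_le_of_le_one_left (norm_nonneg _) hφ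

end Vale.Agent.P278.EpsAux
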